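import Vale.Agent.P140W36.Rows

/-! # P140: the local mass balance (row BAL) -/

open MeasureTheory Set
open scoped ENNReal

namespace Vale.Agent.P140W36

open Vale.Agent.P122W36 (R3)
open Vale.Agent.P140

namespace Bal7

variable {F0 : Om → ℝ} {F : ℝ → Om → ℝ} {ψ : R3 → ℝ}

theorem enorm_le (hψ : ∀ v, |ψ v| ≤ 1 + ‖v‖ ^ 2) {f : Om → ℝ} (hf : ∀ p, 0 ≤ f p) (p : Om) :
    ‖ψ p.2 * f p‖ₑ ≤ ENNReal.ofReal (f p * (1 + ‖p.2‖ ^ 2 + |Real.log (f p)|)) := by
  rw [← ofReal_norm, Real.norm_eq_abs, abs_mul, abs_of_nonneg (hf p), mul_comm]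
  exact ENNReal.ofReal_le_ofReal (mul_le_mul_of_nonneg_left
    ((hψ _).trans (le_add_of_nonneg_right (abs_nonneg _))) (hf p))

theorem int_t (h : Stt.IsSol proj F0 F) (hm : Measurable ψ) (hψ : ∀ v, |ψ v| ≤ 1 + ‖v‖ ^ 2)
    {t : ℝ} (ht : 0 ≤ t) : Integrable fun p : Om => ψ p.2 * F t p := by
  obtain ⟨C, hC⟩ := h.bounded t
  refine ⟨((hm.comp measurable_snd).mul
    (h.measurable.comp (measurable_const.prodMk measurable_id))).aestronglyMeasurable, ?_⟩
  exact ((lintegral_mono (enorm_le hψ (h.nonneg t))).trans (hC t ⟨ht, le_rfl⟩)).trans_lt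
    ENNReal.ofReal_lt_top

theorem restrict_slab {Y : Type} [MeasureSpace Y] [SFinite (volume : Measure Y)] (S : Set ℝ) :
    (volume : Measure (ℝ × Y)).restrict (slab Y S) = (volume.restrict S).prod volume :=
  (Measure.restrict_prod_eq_prod_univ S).symm

theorem int_slab (h : Stt.IsSol proj F0 F) (hm : Measurable ψ) (hψ : ∀ v, |ψ v| ≤ 1 + ‖v‖ ^ 2)
    (T : ℝ) : IntegrableOn (fun q : ℝ × Om => ψ q.2.2 * F q.1 q.2) (slab Om (Icc 0 T)) := by
  obtain ⟨C, hC⟩ := h.bounded T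
  have m : Measurable fun q : ℝ × Om => ψ q.2.2 * F q.1 q.2 :=
    (hm.comp measurable_snd.snd).mul h.measurable
  refine ⟨m.aestronglyMeasurable, ?_⟩
  rw [restrict_slab, HasFiniteIntegral, lintegral_prod _ m.enorm.aemeasurable]
  calc _ ≤ ∫⁻ _ in Icc 0 T, ENNReal.ofReal C := setLIntegral_mono' measurableSet_Icc fun t ht =>
        (lintegral_mono (enorm_le hψ (h.nonneg t))).trans (hC t ht)
    _ < ∞ := by
      rw [setLIntegral_const]
      exact ENNReal.mul_lt_top ENNReal.ofReal_lt_top measure_Icc_lt_top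

theorem fub {S : Set ℝ} {g : ℝ × Om → ℝ} (hg : IntegrableOn g (slab Om S)) :
    IntegrableOn (fun y : ℝ × T3 => ∫ v, g (y.1, y.2, v)) (slab T3 S) ∧
      ∫ y in slab T3 S, ∫ v, g (y.1, y.2, v) = ∫ q in slab Om S, g q := by
  rw [IntegrableOn, restrict_slab] at hg ⊢
  rw [restrict_slab]
  have mp := measurePreserving_prodAssoc ((volume : Measure ℝ).restrict S) (volume : Measure T3)
    (volume : Measure R3)
  have i := (mp.integrable_comp_emb MeasurableEquiv.prodAssoc.measurableEmbedding).2 hg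
  exact ⟨i.integral_prod_left, (integral_prod _ i).symm.trans (mp.integral_comp' g)⟩

theorem loc {ρ : ℝ × T3 → ℝ} (h : ∀ T, IntegrableOn ρ (slab T3 (Icc 0 T))) :
    LocallyIntegrableOn ρ (slab T3 (Ici 0)) := fun y _ =>
  ⟨_, mem_nhdsWithin.2 ⟨{z | z.1 < y.1 + 1}, isOpen_lt continuous_fst continuous_const,
    lt_add_one y.1, fun z hz => (⟨⟨hz.2.1, le_of_lt hz.1⟩, trivial⟩ : z ∈ slab T3 (Icc 0 (y.1 + 1)))⟩,
    h (y.1 + 1)⟩

theorem supp {θ : ℝ × T3 → ℝ} (hs : HasCompactSupport θ) :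
    ∃ R : ℝ, ∀ t x, R < |t| → θ (t, x) = 0 := by
  obtain ⟨R, hR⟩ := (hs.isCompact.image (continuous_abs.comp continuous_fst)).bddAbove
  refine ⟨R, fun t x ht => ?_⟩
  by_contra hne
  exact ht.not_ge (hR ⟨(t, x), subset_tsupport _ hne, rfl⟩)

theorem int_mul (h : Stt.IsSol proj F0 F) (hm : Measurable ψ) (hψ : ∀ v, |ψ v| ≤ 1 + ‖v‖ ^ 2)
    {θ : ℝ × T3 → ℝ} (hc : Continuous θ) (hs : HasCompactSupport θ) :
    IntegrableOn (fun q : ℝ × Om => ψ q.2.2 * F q.1 q.2 * θ (q.1, q.2.1)) (slab Om (Ici 0)) := by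
  obtain ⟨R, hR⟩ := supp hs
  obtain ⟨C, hC⟩ := hc.bounded_above_of_compact_support hs
  have i : IntegrableOn (fun q : ℝ × Om => ψ q.2.2 * F q.1 q.2 * θ (q.1, q.2.1))
      (slab Om (Icc 0 R)) :=
    Integrable.mul_bdd (int_slab h hm hψ R)
      (hc.measurable.comp (measurable_fst.prodMk measurable_snd.fst)).aestronglyMeasurable
      (.of_forall fun q => hC _)
  refine i.of_forall_sdiff_eq_zero (measurableSet_Ici.prod .univ) fun q hq => ?_
  rw [hR q.1 q.2.1 ((not_le.1 fun hle => hq.2 ⟨⟨hq.1.1, hle⟩, trivial⟩).trans_le (le_abs_self _)),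
    mul_zero]

theorem term (h : Stt.IsSol proj F0 F) (hm : Measurable ψ) (hψ : ∀ v, |ψ v| ≤ 1 + ‖v‖ ^ 2)
    {θ : ℝ × T3 → ℝ} (hc : Continuous θ) (hs : HasCompactSupport θ) :
    IntegrableOn (fun y : ℝ × T3 => moment ψ (F y.1) y.2 * θ y) (slab T3 (Ici 0)) ∧
      ∫ y in slab T3 (Ici 0), moment ψ (F y.1) y.2 * θ y =
        ∫ q in slab Om (Ici 0), ψ q.2.2 * F q.1 q.2 * θ (q.1, q.2.1) := by
  have := fub (int_mul h hm hψ hc hs)
  simp only [integral_mul_const] at this
  exact this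

theorem one_le (v : R3) : |(1 : ℝ)| ≤ 1 + ‖v‖ ^ 2 := by
  rw [abs_one]; exact le_add_of_nonneg_right (sq_nonneg _)

theorem co_le (i : Fin 3) (v : R3) : |v i * 1| ≤ 1 + ‖v‖ ^ 2 := by
  have : |v i| ≤ ‖v‖ := PiLp.norm_apply_le v i
  rw [mul_one]
  nlinarith [sq_nonneg (‖v‖ - 1), norm_nonneg v]

theorem co_meas (i : Fin 3) : Measurable fun v : R3 => v i * 1 := by fun_prop

end Bal7

open Bal7 in
theorem bal : BAL := by
  intro h0 F0 F h
  have i0 : Integrable fun p : Om => 1 * F0 p := by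
    simpa using (h.integrable 0 le_rfl).congr h.initial
  refine ⟨fun t ht => ⟨int_t h measurable_const one_le ht, fun i =>
    int_t h (co_meas i) (co_le i) ht⟩, loc fun T => (fub (int_slab h measurable_const one_le T)).1,
    fun i => loc fun T => (fub (int_slab h (co_meas i) (co_le i) T)).1,
    i0.integral_prod_left.locallyIntegrable, fun φ hφ hs => ?_⟩
  obtain ⟨c0, c1, s1, c2, e⟩ := h0 φ hφ hs
  have a := term h measurable_const one_le c1 s1
  have b := fun i => term h (co_meas i) (co_le i) (c2 i).1 (c2 i).2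
  have a' := int_mul h measurable_const one_le c1 s1
  have b' := fun i => int_mul h (co_meas i) (co_le i) (c2 i).1 (c2 i).2
  obtain ⟨C, hC⟩ := c0.bounded_above_of_compact_support hs
  have i1 : Integrable fun p : Om => 1 * F0 p * φ (0, p.1) :=
    i0.mul_bdd (c0.measurable.comp (measurable_const.prodMk measurable_fst)).aestronglyMeasurable
      (.of_forall fun q => hC _)
  have e0 : ∫ x, moment (fun _ => 1) F0 x * φ (0, x) = ∫ p : Om, F0 p * φ (0, p.1) := by
    have := integral_prod _ i1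
    simp only [integral_mul_const] at this
    exact this.symm.trans (by simp only [one_mul]; rfl)
  rw [integral_add a.1 (integrable_finsetSum _ fun i _ => (b i).1),
    integral_finsetSum _ fun i _ => (b i).1, a.2, Finset.sum_congr rfl fun i _ => (b i).2,
    ← integral_finsetSum _ fun i _ => b' i,
    ← integral_add a' (integrable_finsetSum _ fun i _ => b' i), e0,
    restrict_slab, ← restrict_Ioi_eq_restrict_Ici, ← restrict_slab]
  refine Eq.trans ?_ (h.mass (fun t x => φ (t, x)) hφ (supp hs))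
  congr 2
  ext q
  rw [← e (q.1, q.2.1) q.2.2, mul_add, Finset.mul_sum, one_mul]
  congr 1
  exact Finset.sum_congr rfl fun i _ => by ring

end Vale.Agent.P140W36
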